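import Mathlib

/-!
Discs free of Gaussian primes arbitrarily far along every real line.
-/

namespace Vale.Agent.P015

open Complex ComplexConjugate

theorem dvd_congr {a b c : ℤ} (h : a ∣ b) (e : c = b) : a ∣ c := e ▸ h

theorem exists_prime_dvd {z : GaussianInt} (hz : Prime z) :
    ∃ p : ℕ, p.Prime ∧ z ∣ (p : GaussianInt) := by
  have hN : z.norm.natAbs ≠ 0 := by
    have h : 0 < z.norm := GaussianInt.norm_pos.2 hz.ne_zero
    omega
  have h : z ∣ ((z.norm.natAbs : ℕ) : GaussianInt) := by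
    refine ⟨star z, ?_⟩
    rw [← Zsqrtd.norm_eq_mul_conj, GaussianInt.natCast_natAbs_norm]
  rw [← Nat.prod_primeFactorsList hN, Nat.cast_list_prod] at h
  obtain ⟨a, ha, hza⟩ := (Prime.dvd_prod_iff hz).1 h
  obtain ⟨p, hp, rfl⟩ := List.mem_map.1 ha
  exact ⟨p, Nat.prime_of_mem_primeFactorsList hp, hza⟩

theorem not_prime_of_dvd {z : GaussianInt} {l l' : ℕ} (hl : l.Prime) (hl' : l'.Prime)
    (hne : l ≠ l') (h : (l : ℤ) ∣ z.norm) (h' : (l' : ℤ) ∣ z.norm) : ¬ Prime z := by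
  intro hz
  obtain ⟨p, hp, w, hw⟩ := exists_prime_dvd hz
  have e : ((p : ℤ) * p : ℤ) = z.norm * w.norm := by
    rw [← Zsqrtd.norm_mul, ← hw, Zsqrtd.norm_natCast]
  have key : ∀ q : ℕ, q.Prime → (q : ℤ) ∣ z.norm → q = p := fun q hq hd => by
    have : (q : ℤ) ∣ ((p * p : ℕ) : ℤ) := by push_cast; rw [e]; exact hd.mul_right _
    rw [Int.natCast_dvd_natCast, hq.dvd_mul, or_self] at this
    exact (Nat.prime_dvd_prime_iff_eq hq hp).1 this
  exact hne ((key l hl h).trans (key l' hl' h').symm)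

/-- Primes that are `1` mod `4`, avoiding a given bound, one for each index. -/
theorem exists_primes {ι : Type*} [Finite ι] (B : ℕ) :
    ∃ l : ι → ℕ, Function.Injective l ∧ ∀ i, (l i).Prime ∧ l i % 4 = 1 ∧ B < l i := by
  obtain ⟨e⟩ : Nonempty (ι ↪ {p : ℕ | p.Prime ∧ p % 4 = 1 ∧ B < p}) := by
    have hinf : {p : ℕ | p.Prime ∧ p % 4 = 1 ∧ B < p}.Infinite := by
      refine Set.infinite_of_forall_exists_gt fun n => ?_
      obtain ⟨p, hp, hp', hp''⟩ := Nat.exists_prime_gt_modEq_one (max n B) (by norm_num : 4 ≠ 0)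
      exact ⟨p, ⟨hp, hp'', lt_of_le_of_lt (le_max_right _ _) hp'⟩,
        lt_of_le_of_lt (le_max_left _ _) hp'⟩
    have := hinf.to_subtype
    have := Fintype.ofFinite ι
    exact ⟨(Fintype.equivFin ι).toEmbedding.trans (Fin.valEmbedding.trans (Infinite.natEmbedding _))⟩
  exact ⟨fun i => e i, fun i j h => e.injective (Subtype.ext h), fun i => (e i).2⟩

/-- Solving linear congruences to distinct primes. -/
theorem exists_crt {ι : Type*} [Fintype ι] {l : ι → ℕ} (hl : Function.Injective l)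
    (hp : ∀ i, (l i).Prime) (a : ι → ℤ) : ∃ k : ℤ, ∀ i, (l i : ℤ) ∣ k - a i := by
  have hco : Pairwise fun i j => IsCoprime (Ideal.span {(l i : ℤ)}) (Ideal.span {(l j : ℤ)}) := by
    intro i j hij
    rw [Ideal.isCoprime_span_singleton_iff, Nat.isCoprime_iff_coprime]
    exact (Nat.coprime_primes (hp i) (hp j)).2 fun h => hij (hl h)
  obtain ⟨k, hk⟩ := Ideal.exists_forall_sub_mem_ideal hco a
  exact ⟨k, fun i => Ideal.mem_span_singleton.1 (hk i)⟩

/-- Uniformly recurrent returns of an irrational rotation to every interval. -/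
theorem exists_rotation {α : ℝ} (hα : Irrational α) {ε : ℝ} (hε : 0 < ε) :
    ∃ B : ℕ, ∀ (β : ℝ) (N : ℤ), ∃ n : ℤ, N ≤ n ∧ n ≤ N + B ∧
      ∃ k : ℤ, |n * α - β - k| ≤ ε := by
  obtain ⟨m, hm⟩ := exists_nat_gt (1 / ε)
  have hm0 : (0 : ℝ) < m := lt_trans (by positivity) hm
  obtain ⟨j, q, hq, -, hjq⟩ := Real.exists_int_int_abs_mul_sub_le α (Nat.cast_pos.1 hm0)
  obtain ⟨d, hd⟩ : ∃ d, d = (q : ℝ) * α - j := ⟨_, rfl⟩
  have hde : |d| ≤ ε := by
    rw [hd]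
    refine hjq.trans ?_
    rw [div_le_iff₀ (by positivity)]
    rw [div_lt_iff₀ hε] at hm
    nlinarith
  have hd0 : d ≠ 0 := by
    rw [hd]
    intro h
    exact (hα.intCast_mul hq.ne').ne_int j (sub_eq_zero.1 h)
  obtain ⟨Q, rfl⟩ : ∃ Q : ℕ, (Q : ℤ) = q := ⟨q.toNat, Int.toNat_of_nonneg hq.le⟩
  obtain ⟨i0, hi0⟩ := exists_nat_ge (1 / |d|)
  refine ⟨i0 * Q, fun β N => ?_⟩
  obtain ⟨x, hx⟩ : ∃ x, x = (N : ℝ) * α - β := ⟨_, rfl⟩
  have main : ∀ (b : ℤ) (y : ℝ), y = (x - b) / -d → 0 ≤ y → y ≤ 1 / |d| →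
      ∃ n : ℤ, N ≤ n ∧ n ≤ N + ((i0 * Q : ℕ) : ℤ) ∧ ∃ k : ℤ, |n * α - β - k| ≤ ε := by
    intro b y hy h0 h1
    have hi : ⌊y⌋₊ ≤ i0 := Nat.floor_le_of_le (h1.trans hi0)
    refine ⟨N + (⌊y⌋₊ * Q : ℕ), by omega, ?_, b + ⌊y⌋₊ * j, ?_⟩
    · have := Nat.mul_le_mul_right Q hi
      omega
    have e : ((N + (⌊y⌋₊ * Q : ℕ) : ℤ) : ℝ) * α - β - ((b + ⌊y⌋₊ * j : ℤ) : ℝ) =
        (y - ⌊y⌋₊) * -d := by
      have : y * -d = x - b := by rw [hy, div_mul_cancel₀ _ (neg_ne_zero.2 hd0)]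
      rw [sub_mul, this, hd, hx]
      push_cast
      ring
    rw [e, abs_mul, abs_neg]
    refine le_trans (mul_le_of_le_one_left (abs_nonneg d) ?_) hde
    exact abs_le.2 ⟨by linarith [Nat.floor_le h0], by linarith [Nat.lt_floor_add_one y]⟩
  rcases lt_or_gt_of_ne hd0 with h | h
  · refine main ⌊x⌋ _ rfl (div_nonneg (by linarith [Int.floor_le x]) (by linarith)) ?_
    rw [abs_of_neg h]
    exact div_le_div_of_nonneg_right (by linarith [Int.lt_floor_add_one x]) (by linarith)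
  · refine main ⌈x⌉ _ rfl (div_nonneg_of_nonpos (by linarith [Int.le_ceil x]) (by linarith)) ?_
    rw [abs_of_pos h, div_neg, ← neg_div, neg_sub]
    exact div_le_div_of_nonneg_right (by linarith [Int.ceil_lt_add_one x]) h.le

/-- The integer offsets of size at most `R`. -/
noncomputable def box (R : ℕ) : Finset (ℤ × ℤ) :=
  Finset.Icc (-(R : ℤ)) R ×ˢ Finset.Icc (-(R : ℤ)) R

theorem exists_sqrt_neg_one {l : ℕ} (hl : l.Prime) (h : l % 4 = 1) :
    ∃ r : ℤ, (l : ℤ) ∣ r ^ 2 + 1 := by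
  have := Fact.mk hl
  obtain ⟨y, hy⟩ := ZMod.exists_sq_eq_neg_one_iff.2 (by omega : l % 4 ≠ 3)
  refine ⟨y.val, (ZMod.intCast_zmod_eq_zero_iff_dvd _ _).1 ?_⟩
  push_cast
  rw [ZMod.natCast_zmod_val, sq, ← hy, neg_add_cancel]

theorem not_prime_shift {R : ℕ} {l : ↥(box R) × Bool → ℕ} (hli : Function.Injective l)
    (hp : ∀ i, (l i).Prime) {r : ↥(box R) × Bool → ℤ} (hr : ∀ i, (l i : ℤ) ∣ r i ^ 2 + 1)
    {X Y : ℤ} (hd : ∀ i : ↥(box R) × Bool, (l i : ℤ) ∣ (X + i.1.1.1) + r i * (Y + i.1.1.2))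
    {w : ℤ × ℤ} (hw : w ∈ box R) : ¬ Prime (⟨X + w.1, Y + w.2⟩ : GaussianInt) := by
  have key : ∀ s, (l (⟨w, hw⟩, s) : ℤ) ∣ (⟨X + w.1, Y + w.2⟩ : GaussianInt).norm := fun s => by
    have h := dvd_add ((hd (⟨w, hw⟩, s)).mul_right (X + w.1 - r (⟨w, hw⟩, s) * (Y + w.2)))
      ((hr (⟨w, hw⟩, s)).mul_right ((Y + w.2) ^ 2))
    rw [Zsqrtd.norm_def]
    refine dvd_congr h ?_
    ring
  exact not_prime_of_dvd (hp _) (hp _) (fun h => by simpa using hli h) (key false) (key true)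

/-- In a fixed direction `u`, every segment of length `L` passes close to the centre of a square
free of Gaussian primes. -/
theorem exists_free {u : ℂ} (hu : ‖u‖ = 1) (R : ℕ) :
    ∃ L : ℝ, ∀ zx zy : ℝ, ∃ X Y : ℤ, 0 ≤ (X - zx) * u.re + (Y - zy) * u.im ∧
      (X - zx) * u.re + (Y - zy) * u.im ≤ L ∧ |(Y - zy) * u.re - (X - zx) * u.im| ≤ 2 ∧
      ∀ w ∈ box R, ¬ Prime (⟨X + w.1, Y + w.2⟩ : GaussianInt) := by
  classical
  have huu : u.re * u.re + u.im * u.im = 1 := by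
    rw [← Complex.normSq_apply, Complex.normSq_eq_norm_sq, hu, one_pow]
  have hre1 : |u.re| ≤ 1 := hu ▸ Complex.abs_re_le_norm u
  have him1 : |u.im| ≤ 1 := hu ▸ Complex.abs_im_le_norm u
  by_cases hirr : u.im ≠ 0 ∧ Irrational (u.re / u.im)
  · obtain ⟨l, hli, hl⟩ := exists_primes (ι := ↥(box R) × Bool) 1
    choose r hr using fun i => exists_sqrt_neg_one (hl i).1 (hl i).2.1
    obtain ⟨k0, hk0⟩ := exists_crt (l := l) hli (fun i => (hl i).1)
      fun i => -(i.1.1.1 + r i * i.1.1.2)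
    obtain ⟨k1, hk1⟩ := exists_crt (l := l) hli (fun i => (hl i).1) r
    obtain ⟨M, hM⟩ : ∃ M : ℕ, M = ∏ i, l i := ⟨_, rfl⟩
    have hMn : M ≠ 0 := by rw [hM]; exact Finset.prod_ne_zero_iff.2 fun i _ => (hl i).1.ne_zero
    have hM0 : (0 : ℝ) < M := by exact_mod_cast Nat.pos_of_ne_zero hMn
    obtain ⟨τ, hτ⟩ : ∃ τ, τ = u.re / u.im := ⟨_, rfl⟩
    have hru : u.re = τ * u.im := by rw [hτ, div_mul_cancel₀ _ hirr.1]
    have hirr' : Irrational ((τ + k1) / M) := by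
      refine Irrational.div_natCast ?_ hMn
      rw [hτ]
      exact hirr.2.add_intCast k1
    obtain ⟨B, hB⟩ := exists_rotation hirr' (one_div_pos.2 hM0)
    have him : 0 < |u.im| := abs_pos.2 hirr.1
    refine ⟨2 + (B + 1) / |u.im|, fun zx zy => ?_⟩
    obtain ⟨N, hN⟩ : ∃ N : ℤ, N = if 0 < u.im then ⌈zy + u.im⌉ else ⌊zy + u.im⌋ - B := ⟨_, rfl⟩
    obtain ⟨n, hn, hn', k, hk⟩ := hB (((k0 : ℝ) + τ * zy - zx) / M) N
    refine ⟨k0 - k1 * n + M * k, n, ?_⟩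
    obtain ⟨e, he⟩ : ∃ e, e = (M : ℝ) * ((n : ℝ) * ((τ + k1) / M) -
      ((k0 : ℝ) + τ * zy - zx) / M - k) := ⟨_, rfl⟩
    have he1 : |e| ≤ 1 := by
      rw [he, abs_mul, abs_of_pos hM0]
      calc (M : ℝ) * _ ≤ M * (1 / M) := mul_le_mul_of_nonneg_left hk hM0.le
        _ = 1 := by field_simp
    have hX : ((k0 - k1 * n + M * k : ℤ) : ℝ) - zx = τ * (n - zy) - e := by
      rw [he]; push_cast; field_simp; ring
    rw [hX]
    have hs : (τ * ((n : ℝ) - zy) - e) * u.re + (n - zy) * u.im = (n - zy) / u.im - e * u.re := by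
      rw [eq_sub_iff_add_eq, eq_div_iff hirr.1]
      linear_combination ((n : ℝ) - zy) * huu - ((n : ℝ) - zy) * u.re * hru
    have heu : |e * u.re| ≤ 1 := by
      rw [abs_mul]; exact mul_le_one₀ he1 (abs_nonneg _) hre1
    have hdy : 1 ≤ ((n : ℝ) - zy) / u.im ∧ ((n : ℝ) - zy) / u.im ≤ 1 + (B + 1) / |u.im| := by
      rcases lt_or_gt_of_ne hirr.1 with h | h
      · rw [if_neg (not_lt.2 h.le)] at hN
        have a1 : (n : ℝ) ≤ ⌊zy + u.im⌋ := by exact_mod_cast (show n ≤ ⌊zy + u.im⌋ by omega)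
        have a2 : (⌊zy + u.im⌋ : ℝ) - B ≤ n := by
          have : ((⌊zy + u.im⌋ - B : ℤ) : ℝ) ≤ n := Int.cast_le.2 (hN ▸ hn)
          push_cast at this; exact this
        have a3 := Int.floor_le (zy + u.im)
        have a4 := Int.lt_floor_add_one (zy + u.im)
        rw [abs_of_neg h, div_neg, ← sub_eq_add_neg, one_sub_div h.ne,
          div_le_div_right_of_neg h, le_div_iff_of_neg h]
        constructor <;> linarith
      · rw [if_pos h] at hN
        have a1 : (⌈zy + u.im⌉ : ℝ) ≤ n := Int.cast_le.2 (hN ▸ hn)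
        have a2 : (n : ℝ) ≤ ⌈zy + u.im⌉ + B := by
          have : (n : ℝ) ≤ ((⌈zy + u.im⌉ + B : ℤ) : ℝ) := Int.cast_le.2 (hN ▸ hn')
          push_cast at this; exact this
        have a3 := Int.le_ceil (zy + u.im)
        have a4 := Int.ceil_lt_add_one (zy + u.im)
        rw [abs_of_pos h, one_add_div h.ne', div_le_div_iff_of_pos_right h, le_div_iff₀ h]
        constructor <;> linarith
    refine ⟨?_, ?_, ?_, fun w hw => not_prime_shift hli (fun i => (hl i).1) hr (fun i => ?_) hw⟩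
    · rw [hs]; linarith [(abs_le.1 heu).2, hdy.1]
    · rw [hs]; linarith [(abs_le.1 heu).1, hdy.2]
    · rw [show ((n : ℝ) - zy) * u.re - (τ * (n - zy) - e) * u.im = e * u.im by rw [hru]; ring,
        abs_mul]
      exact (mul_le_one₀ he1 (abs_nonneg _) him1).trans one_le_two
    · have hdM : (l i : ℤ) ∣ (M : ℤ) := by
        rw [hM]; exact Int.natCast_dvd_natCast.2 (Finset.dvd_prod_of_mem _ (Finset.mem_univ i))
      have h := dvd_add (dvd_sub (hk0 i) ((hk1 i).mul_right n)) (hdM.mul_right k)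
      refine dvd_congr h ?_
      ring
  · obtain ⟨p, q, c, hc, hre, him⟩ : ∃ p q : ℤ, ∃ c : ℝ, 0 < c ∧ u.re = c * p ∧ u.im = c * q := by
      by_cases h0 : u.im = 0
      · rcases sq_eq_one_iff.1 (show u.re ^ 2 = 1 by rw [h0] at huu; linarith [sq u.re]) with h | h
        · exact ⟨1, 0, 1, one_pos, by simp [h], by simp [h0]⟩
        · exact ⟨-1, 0, 1, one_pos, by simp [h], by simp [h0]⟩
      · obtain ⟨t, ht⟩ : ∃ t : ℚ, (t : ℝ) = u.re / u.im := by
          simpa [Irrational, h0] using hirr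
        rw [Rat.cast_def, eq_div_iff h0] at ht
        have hd : (0 : ℝ) < t.den := by exact_mod_cast t.den_pos
        rcases lt_or_gt_of_ne h0 with h | h
        · refine ⟨-t.num, -(t.den : ℤ), -u.im / t.den, div_pos (by linarith) hd, ?_, ?_⟩
          · rw [← ht]; push_cast; field_simp
          · push_cast; field_simp
        · refine ⟨t.num, (t.den : ℤ), u.im / t.den, div_pos h hd, ?_, ?_⟩
          · rw [← ht]; field_simp
          · push_cast; field_simp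
    have hne : p ^ 2 + q ^ 2 ≠ 0 := by
      intro h0
      have hp0 : p = 0 := by nlinarith
      have hq0 : q = 0 := by nlinarith
      rw [hre, him, hp0, hq0] at huu
      norm_num at huu
    obtain ⟨l, hli, hl⟩ := exists_primes (ι := ↥(box R) × Bool) (p ^ 2 + q ^ 2).natAbs
    choose r hr using fun i => exists_sqrt_neg_one (hl i).1 (hl i).2.1
    have hinv : ∀ i, IsCoprime (p + r i * q) (l i : ℤ) := fun i => by
      refine ((Nat.prime_iff_prime_int.1 (hl i).1).coprime_iff_not_dvd.2 fun hd => ?_).symm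
      have h2 : (l i : ℤ) ∣ p ^ 2 + q ^ 2 := by
        have h := dvd_add (hd.mul_right (p - r i * q)) ((hr i).mul_right (q ^ 2))
        refine dvd_congr h ?_
        ring
      exact absurd (Nat.le_of_dvd (Int.natAbs_pos.2 hne) (Int.natCast_dvd.1 h2))
        (not_le.2 (hl i).2.2)
    choose a b hab using hinv
    obtain ⟨M, hM⟩ : ∃ M : ℕ, M = ∏ i, l i := ⟨_, rfl⟩
    have hM0 : (0 : ℝ) < M := by
      rw [hM, Nat.cast_pos]; exact Finset.prod_pos fun i _ => (hl i).1.pos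
    refine ⟨5 + M / c, fun zx zy => ?_⟩
    obtain ⟨bx, hbx⟩ : ∃ bx : ℤ, bx = ⌊zx⌋ := ⟨_, rfl⟩
    obtain ⟨b', hby⟩ : ∃ b' : ℤ, b' = ⌊zy⌋ := ⟨_, rfl⟩
    obtain ⟨t0, ht0⟩ := exists_crt (l := l) hli (fun i => (hl i).1)
      fun i => -(bx + i.1.1.1 + r i * (b' + i.1.1.2)) * a i
    obtain ⟨t, htM, ht1, ht2⟩ : ∃ t : ℤ, (∃ j, t = t0 + M * j) ∧ 3 * c ≤ t ∧
        (t : ℝ) ≤ 3 * c + M := by
      refine ⟨t0 + M * ⌈(3 * c - t0) / M⌉, ⟨_, rfl⟩, ?_, ?_⟩ <;> push_cast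
      · have := Int.le_ceil ((3 * c - t0) / M)
        rw [div_le_iff₀ hM0] at this
        linarith
      · have := (Int.ceil_lt_add_one ((3 * c - t0) / M)).le
        have h := mul_le_mul_of_nonneg_left this hM0.le
        rw [mul_add, mul_div_cancel₀ _ hM0.ne'] at h
        linarith
    refine ⟨bx + t * p, b' + t * q, ?_⟩
    have ex : |(bx : ℝ) - zx| ≤ 1 := by
      rw [hbx]; exact abs_le.2 ⟨by linarith [Int.lt_floor_add_one zx], by linarith [Int.floor_le zx]⟩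
    have ey : |(b' : ℝ) - zy| ≤ 1 := by
      rw [hby]; exact abs_le.2 ⟨by linarith [Int.lt_floor_add_one zy], by linarith [Int.floor_le zy]⟩
    have hs : (((bx + t * p : ℤ) : ℝ) - zx) * u.re + (((b' + t * q : ℤ) : ℝ) - zy) * u.im =
        t / c + ((bx - zx) * u.re + (b' - zy) * u.im) := by
      rw [← sub_eq_iff_eq_add, eq_div_iff hc.ne']
      linear_combination (norm := (push_cast; rw [hre, him]; ring)) (t : ℝ) * huu
    have hE : |((bx : ℝ) - zx) * u.re + (b' - zy) * u.im| ≤ 2 := by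
      refine (abs_add_le _ _).trans ?_
      rw [abs_mul, abs_mul]
      linarith [mul_le_one₀ ex (abs_nonneg _) hre1, mul_le_one₀ ey (abs_nonneg _) him1]
    have h3 : 3 ≤ (t : ℝ) / c := by rw [le_div_iff₀ hc]; linarith
    have h4 : (t : ℝ) / c ≤ 3 + M / c := by
      rw [div_le_iff₀ hc, add_mul, div_mul_cancel₀ _ hc.ne']; linarith
    refine ⟨?_, ?_, ?_, fun w hw => not_prime_shift hli (fun i => (hl i).1) hr (fun i => ?_) hw⟩
    · rw [hs]; linarith [(abs_le.1 hE).1]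
    · rw [hs]; linarith [(abs_le.1 hE).2]
    · rw [show (((b' + t * q : ℤ) : ℝ) - zy) * u.re - (((bx + t * p : ℤ) : ℝ) - zx) * u.im =
        ((b' : ℝ) - zy) * u.re - (bx - zx) * u.im by push_cast; rw [hre, him]; ring]
      refine (abs_sub _ _).trans ?_
      rw [abs_mul, abs_mul]
      linarith [mul_le_one₀ ey (abs_nonneg _) hre1, mul_le_one₀ ex (abs_nonneg _) him1]
    · obtain ⟨j, hj⟩ := htM
      have hdM : (l i : ℤ) ∣ (M : ℤ) := by
        rw [hM]; exact Int.natCast_dvd_natCast.2 (Finset.dvd_prod_of_mem _ (Finset.mem_univ i))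
      have h := dvd_add (dvd_add ((ht0 i).mul_right (p + r i * q))
        (hdM.mul_right (j * (p + r i * q))))
        ((dvd_mul_left (l i : ℤ) (b i)).mul_left (bx + i.1.1.1 + r i * (b' + i.1.1.2)))
      refine dvd_congr h ?_
      rw [hj]
      linear_combination (-(bx + i.1.1.1 + r i * (b' + i.1.1.2))) * hab i

/-- Every long segment passes close to the centre of a square free of Gaussian primes. -/
theorem exists_free_uniform (R : ℕ) :
    ∃ L : ℝ, 0 ≤ L ∧ ∀ u : ℂ, ‖u‖ = 1 → ∀ z : ℂ, ∃ X Y : ℤ,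
      -1 ≤ (X - z.re) * u.re + (Y - z.im) * u.im ∧
      (X - z.re) * u.re + (Y - z.im) * u.im ≤ L ∧
      |(Y - z.im) * u.re - (X - z.re) * u.im| ≤ 3 ∧
      ∀ w ∈ box R, ¬ Prime (⟨X + w.1, Y + w.2⟩ : GaussianInt) := by
  classical
  choose L hL using fun u : Metric.sphere (0 : ℂ) 1 =>
    exists_free (u := u) (mem_sphere_zero_iff_norm.1 u.2) R
  obtain ⟨δ, hδ, hδ0⟩ : ∃ δ : Metric.sphere (0 : ℂ) 1 → ℝ,
      δ = (fun v => 1 / (2 * (|L v| + 2))) ∧ ∀ v, 0 < δ v :=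
    ⟨_, rfl, fun v => by positivity⟩
  obtain ⟨S, hS⟩ := (isCompact_sphere (0 : ℂ) 1).elim_finite_subcover
    (fun v : Metric.sphere (0 : ℂ) 1 => Metric.ball (v : ℂ) (δ v)) (fun _ => Metric.isOpen_ball)
    fun u hu => Set.mem_iUnion.2 ⟨⟨u, hu⟩, Metric.mem_ball_self (hδ0 _)⟩
  refine ⟨∑ v ∈ S, |L v| + 1, by positivity, fun u hu z => ?_⟩
  obtain ⟨v, hv, huv⟩ : ∃ v ∈ S, u ∈ Metric.ball (v : ℂ) (δ v) := by
    simpa using hS (mem_sphere_zero_iff_norm.2 hu)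
  obtain ⟨X, Y, h0, h1, h2, hw⟩ := hL v z.re z.im
  refine ⟨X, Y, ?_⟩
  obtain ⟨a, ha⟩ : ∃ a : ℝ, a = (X : ℝ) - z.re := ⟨_, rfl⟩
  obtain ⟨b, hb⟩ : ∃ b : ℝ, b = (Y : ℝ) - z.im := ⟨_, rfl⟩
  rw [← ha, ← hb] at h0 h1 h2 ⊢
  rw [Metric.mem_ball, dist_eq_norm, hδ] at huv
  have hvn : (v : ℂ).re * (v : ℂ).re + (v : ℂ).im * (v : ℂ).im = 1 := by
    rw [← Complex.normSq_apply, Complex.normSq_eq_norm_sq, mem_sphere_zero_iff_norm.1 v.2, one_pow]
  have hab : ∀ x y : ℝ, x ^ 2 + y ^ 2 = a ^ 2 + b ^ 2 → |x| ≤ |L v| + 2 := fun x y h => by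
    refine abs_le_of_sq_le_sq ?_ (by positivity)
    have e : a ^ 2 + b ^ 2 = (a * (v : ℂ).re + b * (v : ℂ).im) ^ 2 +
        (b * (v : ℂ).re - a * (v : ℂ).im) ^ 2 := by
      linear_combination (-(a ^ 2 + b ^ 2)) * hvn
    have q1 : (a * (v : ℂ).re + b * (v : ℂ).im) ^ 2 ≤ |L v| ^ 2 := by
      rw [sq_abs]; exact pow_le_pow_left₀ h0 h1 2
    have q2 : (b * (v : ℂ).re - a * (v : ℂ).im) ^ 2 ≤ 2 ^ 2 := by
      rw [← sq_abs]; exact pow_le_pow_left₀ (abs_nonneg _) h2 2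
    nlinarith [sq_nonneg y, abs_nonneg (L v)]
  have hA : |a| ≤ |L v| + 2 := hab a b rfl
  have hB : |b| ≤ |L v| + 2 := hab b a (add_comm _ _)
  have hC : ∀ x d : ℝ, |x| ≤ |L v| + 2 → |d| ≤ ‖u - v‖ → |x * d| ≤ 1 / 2 := fun x d hx hd => by
    rw [abs_mul]
    calc |x| * |d| ≤ (|L v| + 2) * (1 / (2 * (|L v| + 2))) :=
          mul_le_mul hx (hd.trans huv.le) (abs_nonneg _) (by positivity)
      _ = 1 / 2 := by field_simp
  have r1 : |u.re - (v : ℂ).re| ≤ ‖u - v‖ := by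
    simpa using Complex.abs_re_le_norm (u - v)
  have r2 : |u.im - (v : ℂ).im| ≤ ‖u - v‖ := by
    simpa using Complex.abs_im_le_norm (u - v)
  have c1 := abs_le.1 (hC a _ hA r1)
  have c2 := abs_le.1 (hC b _ hB r2)
  have c3 := abs_le.1 (hC b _ hB r1)
  have c4 := abs_le.1 (hC a _ hA r2)
  have hsum : |L v| ≤ ∑ v ∈ S, |L v| := Finset.single_le_sum (fun v _ => abs_nonneg (L v)) hv
  have h2' := abs_le.1 h2
  refine ⟨?_, ?_, abs_le.2 ⟨?_, ?_⟩, hw⟩ <;> linarith [le_abs_self (L v)]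

end Vale.Agent.P015
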